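import Vale.Agent.P011.H439.Syl

/-!
Generation: a right inverse for the matrix with columns `Θ (1 - c j ρ)⁻¹ w0`.
-/

open Matrix Polynomial

namespace Vale.Agent.P011.H223

open Vale.Agent.P011.H439

section

variable {K D : Type*} [Field K] [DivisionRing D] [Algebra K D]
  {ι : Type*} [Fintype ι] [DecidableEq ι]

/-- The product of the factors `1 - c i X`. -/
noncomputable def qS {m : ℕ} (c : Fin m → K) (T : Finset (Fin m)) : K[X] :=
  ∏ i ∈ T, (1 - C (c i) * X)

theorem aeval_factor {A : Type*} [Ring A] [Algebra K A] (x : K) (ρ : A) :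
    aeval ρ (1 - C x * X : K[X]) = 1 - x • ρ := by
  simp [Algebra.smul_def]

theorem isUnit_qS {m : ℕ} {c : Fin m → K} {ρ : Matrix ι ι D} (h : ∀ j, IsUnit (1 - c j • ρ))
    (T : Finset (Fin m)) : IsUnit (aeval ρ (qS c T)) := by
  classical
  induction T using Finset.induction_on with
  | empty => simp [qS]
  | insert i T hi ih =>
    rw [qS, Finset.prod_insert hi, map_mul, aeval_factor]
    exact (h i).mul ih

/-- Vanishing against all the products with one factor removed gives vanishing against all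
powers below `m`. -/
theorem vanish_lt {m : ℕ} {c : Fin m → K} (hc : Function.Injective c) {ρ : Matrix ι ι D}
    {η : Matrix (Fin 1) ι D} {w : Matrix ι (Fin 1) D}
    (h : ∀ j, η * aeval ρ (qS c (Finset.univ.erase j)) * w = 0) :
    ∀ s : ℕ, ∀ S : Finset (Fin m), S.card = s → ∀ l, l < s →
      η * (aeval ρ (qS c Sᶜ * X ^ l)) * w = 0 := by
  classical
  intro s
  induction s with
  | zero => intro S _ l hl; omega
  | succ s ih =>
    intro S hS l hl
    rcases Nat.eq_zero_or_pos s with hs | hs
    · subst hs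
      obtain ⟨j, rfl⟩ := Finset.card_eq_one.mp hS
      have hl0 : l = 0 := by omega
      subst hl0
      have hcompl : ({j} : Finset (Fin m))ᶜ = Finset.univ.erase j := by
        ext x; simp
      rw [hcompl, pow_zero, mul_one]
      exact h j
    · -- relation between consecutive terms
      have key : ∀ i ∈ S, ∀ l, l < s →
          η * (aeval ρ (qS c Sᶜ * X ^ l)) * w - c i • (η * (aeval ρ (qS c Sᶜ * X ^ (l + 1))) * w)
            = 0 := by
        intro i hi l hl
        have h1 := ih (S.erase i) (by rw [Finset.card_erase_of_mem hi, hS]; rfl) l hl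
        have hcompl : (S.erase i)ᶜ = insert i Sᶜ := by
          ext x; simp only [Finset.mem_compl, Finset.mem_erase, Finset.mem_insert]; tauto
        have hni : i ∉ Sᶜ := by simpa using hi
        have hq : qS c (S.erase i)ᶜ * X ^ l
            = qS c Sᶜ * X ^ l - C (c i) * (qS c Sᶜ * X ^ (l + 1)) := by
          rw [hcompl, qS, Finset.prod_insert hni, qS]; ring
        rw [hq, map_sub, map_mul (aeval ρ) (C (c i)), aeval_C, Matrix.mul_sub, Matrix.sub_mul,
          ← Algebra.smul_def, Matrix.mul_smul, Matrix.smul_mul] at h1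
        exact h1
      obtain ⟨i, hi, i', hi', hne⟩ := Finset.one_lt_card.mp (by rw [hS]; omega : 1 < S.card)
      have hz : ∀ l, l < s → η * (aeval ρ (qS c Sᶜ * X ^ (l + 1))) * w = 0 := by
        intro l hl
        have h1 := key i hi l hl
        have h2 := key i' hi' l hl
        have h3 : (c i - c i') • (η * (aeval ρ (qS c Sᶜ * X ^ (l + 1))) * w) = 0 := by
          rw [sub_smul, sub_eq_zero]
          have e1 := sub_eq_zero.mp h1
          have e2 := sub_eq_zero.mp h2
          rw [← e1, ← e2]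
        rcases smul_eq_zero.mp h3 with h4 | h4
        · exact absurd (hc (sub_eq_zero.mp h4)) hne
        · exact h4
      rcases Nat.eq_zero_or_pos l with hl0 | hl0
      · subst hl0
        have h1 := key i hi 0 hs
        rw [hz 0 hs, smul_zero, sub_zero] at h1
        exact h1
      · obtain ⟨l', rfl⟩ : ∃ l', l = l' + 1 := ⟨l - 1, by omega⟩
        exact hz l' (by omega)

theorem vanish_all {m : ℕ} {c : Fin m → K} {ρ : Matrix ι ι D}
    (hρ : aeval ρ (Pc c) = 0) {η : Matrix (Fin 1) ι D} {w : Matrix ι (Fin 1) D}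
    (h : ∀ l, l < m → η * ρ ^ l * w = 0) (l : ℕ) : η * ρ ^ l * w = 0 := by
  induction l using Nat.strong_induction_on with
  | _ l ih =>
    rcases lt_or_ge l m with hl | hl
    · exact h l hl
    · have h1 : ρ ^ m = - ∑ i : Fin m, c i • ρ ^ (i : ℕ) := by
        rw [aeval_Pc] at hρ
        exact eq_neg_of_add_eq_zero_left hρ
      have h2 : ρ ^ l = - ∑ i : Fin m, c i • ρ ^ (l - m + (i : ℕ)) := by
        have : ρ ^ l = ρ ^ (l - m) * ρ ^ m := by rw [← pow_add]; congr 1; omega
        rw [this, h1, Matrix.mul_neg, Matrix.mul_sum]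
        congr 1
        refine Finset.sum_congr rfl fun i _ => ?_
        rw [Matrix.mul_smul, ← pow_add]
      rw [h2, Matrix.mul_neg, Matrix.neg_mul, Matrix.mul_sum, Matrix.sum_mul, neg_eq_zero]
      refine Finset.sum_eq_zero fun i _ => ?_
      rw [Matrix.mul_smul, Matrix.smul_mul, ih _ (by have := i.2; omega), smul_zero]

/-- Row version of the generation lemma. -/
theorem row_eq_zero {m : ℕ} {ρ r a Θ : Matrix ι ι D} {w0 : Matrix ι (Fin 1) D}
    {y : Matrix (Fin 1) ι D} {c0 : Fin m → K}
    (hρ : aeval ρ (Pc c0) = 0) (hr : IsUnit (aeval r (Pc c0))) (ha : IsUnit a)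
    (hw : a * r - ρ * a = w0 * y) (hΘ : IsUnit Θ)
    {c : Fin m → K} (hc : Function.Injective c) (hcu : ∀ j, IsUnit (1 - c j • ρ))
    {η : Matrix (Fin 1) ι D} (hη : ∀ j, η * (Θ * Ring.inverse (1 - c j • ρ) * w0) = 0) :
    η = 0 := by
  classical
  have hP : IsUnit (aeval ρ (qS c Finset.univ)) := isUnit_qS hcu _
  set P := aeval ρ (qS c Finset.univ) with hPdef
  set η' := η * Θ * Ring.inverse P with hη'
  have hη'P : η' * P = η * Θ := by
    rw [hη', Matrix.mul_assoc, Ring.inverse_mul_cancel _ hP, Matrix.mul_one]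
  have h1 : ∀ j, η' * aeval ρ (qS c (Finset.univ.erase j)) * w0 = 0 := by
    intro j
    have e1 : P = aeval ρ (qS c (Finset.univ.erase j)) * (1 - c j • ρ) := by
      rw [hPdef, ← aeval_factor (c j) ρ, ← map_mul, qS, qS, mul_comm,
        Finset.mul_prod_erase Finset.univ (fun i => (1 - C (c i) * X : K[X])) (Finset.mem_univ j)]
    have e2 : η' * aeval ρ (qS c (Finset.univ.erase j)) = η * Θ * Ring.inverse (1 - c j • ρ) := by
      rw [← hη'P, e1, Matrix.mul_assoc η', Matrix.mul_assoc (aeval ρ _),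
        Ring.mul_inverse_cancel _ (hcu j), Matrix.mul_one]
    rw [e2, Matrix.mul_assoc (η * Θ), Matrix.mul_assoc η, ← Matrix.mul_assoc Θ]
    exact hη j
  have h2 : ∀ l, l < m → η' * ρ ^ l * w0 = 0 := by
    intro l hl
    have := vanish_lt hc h1 m Finset.univ (by simp) l hl
    simpa [qS] using this
  have h3 : ∀ l, η' * ρ ^ l * w0 = 0 := vanish_all hρ h2
  have h4 : ∀ l, η' * a * r ^ l = η' * ρ ^ l * a := by
    intro l
    induction l with
    | zero => simp
    | succ l ih =>
      have e : a * r = ρ * a + w0 * y := by rw [← hw]; abel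
      calc η' * a * r ^ (l + 1) = η' * a * r ^ l * r := by rw [pow_succ, ← Matrix.mul_assoc]
        _ = η' * ρ ^ l * (a * r) := by rw [ih, Matrix.mul_assoc]
        _ = η' * ρ ^ (l + 1) * a + (η' * ρ ^ l * w0) * y := by
          rw [e, Matrix.mul_add, pow_succ]; simp only [Matrix.mul_assoc]
        _ = η' * ρ ^ (l + 1) * a := by rw [h3 l, Matrix.zero_mul, add_zero]
  have h5 : ∀ f : K[X], η' * a * aeval r f = η' * aeval ρ f * a := by
    intro f
    induction f using Polynomial.induction_on' with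
    | add p q hp hq => rw [map_add, map_add, Matrix.mul_add, Matrix.mul_add, Matrix.add_mul, hp, hq]
    | monomial k x =>
      rw [← C_mul_X_pow_eq_monomial, map_mul, map_mul, aeval_C, aeval_C, map_pow, map_pow, aeval_X,
        aeval_X, ← Algebra.smul_def, ← Algebra.smul_def, Matrix.mul_smul, Matrix.mul_smul,
        Matrix.smul_mul, h4]
  have h6 : η' * a * aeval r (Pc c0) = 0 := by rw [h5, hρ, Matrix.mul_zero, Matrix.zero_mul]
  have h7 : η' * a = 0 := by
    calc η' * a = η' * a * (aeval r (Pc c0) * Ring.inverse (aeval r (Pc c0))) := by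
          rw [Ring.mul_inverse_cancel _ hr, Matrix.mul_one]
      _ = 0 := by rw [← Matrix.mul_assoc, h6, Matrix.zero_mul]
  have h8 : η' = 0 := by
    calc η' = η' * (a * Ring.inverse a) := by rw [Ring.mul_inverse_cancel _ ha, Matrix.mul_one]
      _ = 0 := by rw [← Matrix.mul_assoc, h7, Matrix.zero_mul]
  have h9 : η * Θ = 0 := by rw [← hη'P, h8, Matrix.zero_mul]
  calc η = η * (Θ * Ring.inverse Θ) := by rw [Ring.mul_inverse_cancel _ hΘ, Matrix.mul_one]
    _ = 0 := by rw [← Matrix.mul_assoc, h9, Matrix.zero_mul]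

/-- A matrix over a division ring with trivial left kernel has a right inverse. -/
theorem exists_right_inverse {m : ℕ} {G : Matrix ι (Fin m) D}
    (hG : ∀ η : Matrix (Fin 1) ι D, η * G = 0 → η = 0) :
    ∃ R : Matrix (Fin m) ι D, G * R = 1 := by
  classical
  have hinj : LinearMap.ker (Matrix.vecMulLinear G) = ⊥ := by
    rw [LinearMap.ker_eq_bot']
    intro v hv
    have h1 : (Matrix.of fun (_ : Fin 1) => v) * G = 0 := by
      ext i j
      have := congrFun hv j
      simpa [Matrix.mul_apply, Matrix.vecMul, dotProduct] using this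
    have h2 := hG _ h1
    funext i
    exact congrFun (congrFun h2 0) i
  obtain ⟨g, hg⟩ := LinearMap.exists_leftInverse_of_injective (Matrix.vecMulLinear G) hinj
  refine ⟨Matrix.of fun j => g (Pi.single j 1), ?_⟩
  ext i i'
  have h1 : g (Matrix.vecMulLinear G (Pi.single i 1)) = Pi.single i 1 := by
    have := congrArg (fun f => f (Pi.single i 1)) hg
    simpa using this
  have h2 : Matrix.vecMulLinear G (Pi.single i 1) = ∑ j, G i j • (Pi.single j 1 : Fin m → D) := by
    ext j
    simp [Matrix.vecMulLinear, Finset.sum_apply, Pi.single_apply]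
  rw [h2, map_sum] at h1
  have h3 := congrFun h1 i'
  simp only [map_smul, Finset.sum_apply, Pi.smul_apply, smul_eq_mul] at h3
  rw [Matrix.mul_apply, Matrix.one_apply]
  simp only [Matrix.of_apply]
  rw [h3, Pi.single_apply]
  simp only [eq_comm]

/-- **Generation** (L3g). -/
theorem gen' {m : ℕ} {ρ r a Θ : Matrix ι ι D} {w0 : Matrix ι (Fin 1) D}
    {y : Matrix (Fin 1) ι D} {c0 : Fin m → K}
    (hρ : aeval ρ (Pc c0) = 0) (hr : IsUnit (aeval r (Pc c0))) (ha : IsUnit a)
    (hw : a * r - ρ * a = w0 * y) (hΘ : IsUnit Θ)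
    {c : Fin m → K} (hc : Function.Injective c) (hcu : ∀ j, IsUnit (1 - c j • ρ)) :
    ∃ R : Matrix (Fin m) ι D,
      (Matrix.of fun i j => (Θ * Ring.inverse (1 - c j • ρ) * w0) i 0) * R = 1 := by
  refine exists_right_inverse fun η hη => ?_
  refine row_eq_zero hρ hr ha hw hΘ hc hcu fun j => ?_
  ext i i'
  have h1 := congrFun (congrFun hη i) j
  rw [Fin.eq_zero i']
  simpa [Matrix.mul_apply] using h1

end

/-- **Generation** (L3g), in the frozen letters of row 10773. -/
theorem gen {K D : Type*} [Field K] [StarRing K] [DivisionRing D] [StarRing D] [Algebra K D]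
    {b m : ℕ} {ρ r a Θ : Matrix (Fin b) (Fin b) D} {w0 : Matrix (Fin b) (Fin 1) D}
    {c0 : Fin m → K} (hρ : aeval ρ (Pc (sc c0)) = 0) (hr : IsUnit (aeval r (Pc (sc c0))))
    (ha : IsUnit a) (hw : a * r - ρ * a = w0 * w0ᴴ) (hΘ : IsUnit Θ)
    {c : Fin m → K} (hc : Function.Injective c) (hcu : ∀ j, IsUnit (1 - c j • ρ)) :
    ∃ R : Matrix (Fin m) (Fin b) D,
      (Matrix.of fun i j => (Θ * Ring.inverse (1 - c j • ρ) * w0) i 0) * R = 1 :=
  gen' hρ hr ha hw hΘ hc hcu

end Vale.Agent.P011.H223
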