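import Mathlib.GroupTheory.Index
import Mathlib.Data.ZMod.QuotientGroup
import Mathlib.Algebra.BigOperators.Group.Finset.Basic
import Mathlib.Tactic.Ring

/-!
# The Herbrand quotient of a module with an invariant map to the integers with finite kernel
-/

open Finset Subgroup

namespace Vale.Agent.P011.H223

variable {A Z : Type*} [CommGroup A]

/-- The index of `B` in `C` through a homomorphism. -/
theorem relIndex_eq_mul [Group Z] (φ : A →* Z) {B C : Subgroup A} (h : B ≤ C) :
    (B.map φ).relIndex (C.map φ) * B.relIndex (φ.ker ⊓ C) = B.relIndex C := by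
  have h2 : (B ⊔ φ.ker) ⊓ C = B ⊔ φ.ker ⊓ C := by
    apply le_antisymm
    · rintro x ⟨hx, hxC⟩
      obtain ⟨b, hb, y, hy, rfl⟩ := Subgroup.mem_sup.mp hx
      exact Subgroup.mem_sup.mpr ⟨b, hb, y, ⟨hy, by
        have := C.mul_mem (C.inv_mem (h hb)) hxC
        rwa [inv_mul_cancel_left] at this⟩, rfl⟩
    · exact le_inf (sup_le_sup_left inf_le_left _) (sup_le h inf_le_right)
  have h1 : (B.map φ).relIndex (C.map φ) = (B ⊔ φ.ker ⊓ C).relIndex C := by
    rw [← relIndex_comap, comap_map_eq, ← inf_relIndex_right, h2]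
  rw [h1, mul_comm, ← relIndex_sup_left (φ.ker ⊓ C) B]
  exact relIndex_mul_relIndex _ _ _ le_sup_left (sup_le h inf_le_right)

theorem card_mul_relIndex {H K : Subgroup A} (h : H ≤ K) :
    Nat.card H * H.relIndex K = Nat.card K := by
  rw [← relIndex_bot_left, ← relIndex_bot_left]
  exact relIndex_mul_relIndex _ _ _ bot_le h

theorem index_int_ne_zero (P : Subgroup (Multiplicative ℤ)) (hP : P ≠ ⊥) : P.index ≠ 0 := by
  obtain ⟨⟨x, hx⟩, hx2⟩ := Subgroup.ne_bot_iff_exists_ne_one.mp hP
  have hx1 : x ≠ 1 := fun h => hx2 (Subtype.ext h)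
  have h1 : AddSubgroup.toSubgroup (AddSubgroup.zmultiples (Multiplicative.toAdd x)) ≤ P := by
    intro y hy
    obtain ⟨k, hk⟩ := AddSubgroup.mem_zmultiples_iff.mp (show Multiplicative.toAdd y ∈
      AddSubgroup.zmultiples (Multiplicative.toAdd x) from hy)
    have : y = x ^ k := by
      apply Multiplicative.toAdd.injective
      rw [toAdd_zpow]
      exact hk.symm
    rw [this]
    exact P.zpow_mem hx k
  have h2 := index_dvd_of_le h1
  rw [AddSubgroup.index_toSubgroup, Int.index_zmultiples] at h2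
  intro h0
  rw [h0, zero_dvd_iff, Int.natAbs_eq_zero] at h2
  exact hx1 (Multiplicative.toAdd.injective h2)

theorem index_pow_int (p : ℕ) :
    (powMonoidHom p : Multiplicative ℤ →* Multiplicative ℤ).range.index = p := by
  have h1 : (powMonoidHom p : Multiplicative ℤ →* Multiplicative ℤ).range =
      AddSubgroup.toSubgroup (AddSubgroup.zmultiples (p : ℤ)) := by
    ext y
    constructor
    · rintro ⟨x, rfl⟩
      show Multiplicative.toAdd (x ^ p) ∈ AddSubgroup.zmultiples (p : ℤ)
      refine AddSubgroup.mem_zmultiples_iff.mpr ⟨Multiplicative.toAdd x, ?_⟩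
      rw [toAdd_pow, smul_eq_mul, nsmul_eq_mul, mul_comm]
    · intro hy
      obtain ⟨k, hk⟩ := AddSubgroup.mem_zmultiples_iff.mp (show Multiplicative.toAdd y ∈
        AddSubgroup.zmultiples (p : ℤ) from hy)
      refine ⟨Multiplicative.ofAdd k, ?_⟩
      apply Multiplicative.toAdd.injective
      rw [← hk]
      show Multiplicative.toAdd ((Multiplicative.ofAdd k) ^ p) = _
      rw [toAdd_pow, toAdd_ofAdd, smul_eq_mul, nsmul_eq_mul, mul_comm]
  rw [h1, AddSubgroup.index_toSubgroup, Int.index_zmultiples, Int.natAbs_natCast]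

/-- The subgroup of `p`-th powers in a nontrivial subgroup of the integers. -/
theorem relIndex_pow_int (P : Subgroup (Multiplicative ℤ)) (hP : P ≠ ⊥) {p : ℕ} (hp : p ≠ 0) :
    (P.map (powMonoidHom p)).relIndex P = p := by
  have h0 := index_int_ne_zero P hP
  have h1 : P.map (powMonoidHom p) ≤ P := by
    rintro _ ⟨x, hx, rfl⟩
    exact P.pow_mem hx p
  have h2 := relIndex_mul_index h1
  have hinj : Function.Injective (powMonoidHom p : Multiplicative ℤ →* Multiplicative ℤ) := by
    intro x y hxy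
    apply Multiplicative.toAdd.injective
    have h3 : Multiplicative.toAdd (x ^ p) = Multiplicative.toAdd (y ^ p) := congrArg _ hxy
    rw [toAdd_pow, toAdd_pow, nsmul_eq_mul, nsmul_eq_mul] at h3
    exact mul_left_cancel₀ (Nat.cast_ne_zero.mpr hp) h3
  have h3 : (P.map (powMonoidHom p)).index = P.index * p := by
    have := relIndex_mul_index (H := P.map (powMonoidHom p))
      (K := (⊤ : Subgroup (Multiplicative ℤ)).map (powMonoidHom p)) (Subgroup.map_mono le_top)
    rw [relIndex_map_map_of_injective _ _ hinj, relIndex_top_right, ← MonoidHom.range_eq_map,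
      index_pow_int] at this
    exact this.symm
  rw [h3, mul_comm] at h2
  exact mul_left_cancel₀ h0 h2

/-- **The Herbrand quotient.** `A` is an abelian group with an action of a cyclic group of prime
order `p` (generator `s`) and an invariant nontrivial map `φ` to the integers with finite kernel;
`N` is the norm and `δ = s - 1`. Then `[ker δ : im N] = p [ker N : im δ]`, both finite. -/
theorem herbrand (s : A ≃* A) (p : ℕ) (hp : p.Prime) (hs : ∀ a, (s ^ p) a = a)
    (φ : A →* Multiplicative ℤ) (hφ : ∀ a, φ (s a) = φ a) (a0 : A) (h0 : φ a0 ≠ 1)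
    [Finite φ.ker] (N δ : A →* A) (hN : ∀ a, N a = ∏ i ∈ range p, (s ^ i) a)
    (hδ : ∀ a, δ a = s a / a) :
    N.range.relIndex δ.ker = p * δ.range.relIndex N.ker ∧ δ.range.relIndex N.ker ≠ 0 := by
  have hp0 : p ≠ 0 := hp.ne_zero
  -- the norm is invariant
  have hsN : ∀ a, s (N a) = N a := by
    intro a
    have h1 : s (N a) = ∏ i ∈ range p, (s ^ (i + 1)) a := by
      rw [hN, map_prod]
      refine Finset.prod_congr rfl fun i _ => ?_
      rw [pow_succ', MulAut.mul_apply]
    have h2 : (∏ i ∈ range p, (s ^ (i + 1)) a) * a = (∏ i ∈ range p, (s ^ i) a) * a := by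
      have h3 := Finset.prod_range_succ (fun i => (s ^ i) a) p
      have h4 := Finset.prod_range_succ' (fun i => (s ^ i) a) p
      rw [hs] at h3
      rw [pow_zero, MulAut.one_apply] at h4
      rw [← h3, ← h4]
    rw [h1, hN]
    exact mul_right_cancel h2
  have hNs : ∀ a, N (s a) = N a := by
    intro a
    rw [← hsN a, hN, hN, map_prod]
    refine Finset.prod_congr rfl fun i _ => ?_
    rw [← MulAut.mul_apply, ← MulAut.mul_apply, ← pow_succ, ← pow_succ']
  have hφs : ∀ (i : ℕ) a, φ ((s ^ i) a) = φ a := by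
    intro i
    induction i with
    | zero => intro a; rw [pow_zero, MulAut.one_apply]
    | succ i ih => intro a; rw [pow_succ, MulAut.mul_apply, ih, hφ]
  have hφN : ∀ a, φ (N a) = φ a ^ p := by
    intro a
    rw [hN, map_prod, Finset.prod_congr rfl fun i _ => hφs i a, Finset.prod_const, card_range]
  have hpw : ∀ z : Multiplicative ℤ, z ^ p = 1 → z = 1 := by
    intro z hz
    apply Multiplicative.toAdd.injective
    have h3 : Multiplicative.toAdd (z ^ p) = 0 := congrArg Multiplicative.toAdd hz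
    rw [toAdd_pow, nsmul_eq_mul, mul_eq_zero] at h3
    exact h3.resolve_left (Nat.cast_ne_zero.mpr hp0)
  have hNk : N.ker ≤ φ.ker := by
    intro a ha
    apply hpw
    rw [← hφN, MonoidHom.mem_ker.mp ha, map_one]
  have hdN : δ.range ≤ N.ker := by
    rintro _ ⟨a, rfl⟩
    rw [MonoidHom.mem_ker, hδ, map_div, hNs, div_self']
  have hNd : N.range ≤ δ.ker := by
    rintro _ ⟨a, rfl⟩
    rw [MonoidHom.mem_ker, hδ, hsN, div_self']
  have hdk : δ.range ≤ φ.ker := hdN.trans hNk
  have hfin : ∀ H : Subgroup A, H ≤ φ.ker → Finite H := fun H hH =>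
    Finite.of_injective (Subgroup.inclusion hH) (Subgroup.inclusion_injective hH)
  have := hfin _ hNk
  have := hfin _ hdk
  have := hfin _ (inf_le_left : φ.ker ⊓ δ.ker ≤ φ.ker)
  -- the counts
  have e1 : δ.ker.index = Nat.card δ.range := index_ker δ
  have e2 : (δ.ker.map φ).relIndex φ.range * δ.ker.relIndex φ.ker = δ.ker.index := by
    have := relIndex_eq_mul φ (le_top : δ.ker ≤ ⊤)
    rwa [inf_top_eq, relIndex_top_right, ← MonoidHom.range_eq_map] at this
  have e3 : (N.range.map φ).relIndex (δ.ker.map φ) * N.range.relIndex (φ.ker ⊓ δ.ker) =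
      N.range.relIndex δ.ker := relIndex_eq_mul φ hNd
  have hNm : N.range.map φ = φ.range.map (powMonoidHom p) := by
    ext z
    constructor
    · rintro ⟨_, ⟨a, rfl⟩, rfl⟩
      exact ⟨φ a, ⟨a, rfl⟩, (hφN a).symm⟩
    · rintro ⟨_, ⟨a, rfl⟩, rfl⟩
      exact ⟨N a, ⟨a, rfl⟩, hφN a⟩
  have hr : φ.range ≠ ⊥ := by
    intro h
    apply h0
    have : φ a0 ∈ φ.range := ⟨a0, rfl⟩
    rwa [h, Subgroup.mem_bot] at this
  have e4 : (N.range.map φ).relIndex (δ.ker.map φ) * (δ.ker.map φ).relIndex φ.range = p := by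
    have h1 : δ.ker.map φ ≤ φ.range := by
      rintro _ ⟨a, -, rfl⟩
      exact ⟨a, rfl⟩
    rw [relIndex_mul_relIndex _ _ _ (Subgroup.map_mono hNd) h1, hNm]
    exact relIndex_pow_int _ hr hp0
  -- the finite groups
  have e5 : δ.range.relIndex N.ker * Nat.card δ.range = Nat.card N.ker := by
    rw [mul_comm]
    exact card_mul_relIndex hdN
  have e6 : δ.ker.relIndex φ.ker * Nat.card (φ.ker ⊓ δ.ker : Subgroup A) = Nat.card φ.ker := by
    rw [← inf_relIndex_left, mul_comm]
    exact card_mul_relIndex inf_le_left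
  have hNI : N.range ⊓ (φ.ker ⊓ δ.ker) = φ.ker.map N := by
    ext z
    constructor
    · rintro ⟨⟨a, rfl⟩, h1, -⟩
      exact ⟨a, hpw _ (by rw [← hφN]; exact h1), rfl⟩
    · rintro ⟨a, ha, rfl⟩
      refine ⟨⟨a, rfl⟩, ?_, hNd ⟨a, rfl⟩⟩
      show φ (N a) = 1
      rw [hφN, MonoidHom.mem_ker.mp ha, one_pow]
  have e7 : N.range.relIndex (φ.ker ⊓ δ.ker) * Nat.card (φ.ker.map N) =
      Nat.card (φ.ker ⊓ δ.ker : Subgroup A) := by
    rw [← inf_relIndex_right, hNI, mul_comm]
    refine card_mul_relIndex ?_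
    rw [← hNI]
    exact inf_le_right
  have e8 : Nat.card (φ.ker.map N) * Nat.card N.ker = Nat.card φ.ker := by
    rw [← relIndex_ker, mul_comm]
    exact card_mul_relIndex hNk
  have c1 : Nat.card N.ker ≠ 0 := Nat.card_pos.ne'
  have c2 : Nat.card δ.range ≠ 0 := Nat.card_pos.ne'
  have c3 : Nat.card φ.ker ≠ 0 := Nat.card_pos.ne'
  have c4 : Nat.card (φ.ker.map N) ≠ 0 := by
    intro h
    rw [h, zero_mul] at e8
    exact c3 e8.symm
  refine ⟨?_, fun h => c1 (by rw [← e5, h, zero_mul])⟩
  set x := (N.range.map φ).relIndex (δ.ker.map φ)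
  set t := (δ.ker.map φ).relIndex φ.range
  set y := N.range.relIndex (φ.ker ⊓ δ.ker)
  set r := δ.ker.relIndex φ.ker
  apply mul_right_cancel₀ (mul_ne_zero c2 c4)
  rw [← e3]
  calc x * y * (Nat.card δ.range * Nat.card (φ.ker.map N))
      = x * Nat.card δ.range * (y * Nat.card (φ.ker.map N)) := by ring
    _ = x * (t * r) * (Nat.card (φ.ker ⊓ δ.ker : Subgroup A)) := by rw [e7, ← e1, ← e2]
    _ = (x * t) * (r * Nat.card (φ.ker ⊓ δ.ker : Subgroup A)) := by ring
    _ = p * Nat.card φ.ker := by rw [e4, e6]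
    _ = p * (Nat.card (φ.ker.map N) * Nat.card N.ker) := by rw [e8]
    _ = p * (Nat.card (φ.ker.map N) * (δ.range.relIndex N.ker * Nat.card δ.range)) := by rw [e5]
    _ = p * δ.range.relIndex N.ker * (Nat.card δ.range * Nat.card (φ.ker.map N)) := by ring

end Vale.Agent.P011.H223
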